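import Mathlib

/-!
P337, number theory: fractional parts from residues.
-/

namespace Vale.Agent.P337

/-- the residue used in the approximation of the fractional part of `2 ^ j X / ∏ PP` -/
noncomputable def crtT (PP : Finset ℕ) (X : ℤ) (j r : ℕ) : ZMod r :=
  (X : ZMod r) * ((∏ t ∈ PP.erase r, t : ℕ) : ZMod r)⁻¹ * 2 ^ j

/-- approximation of the fractional part of `2 ^ j X / ∏ PP`, in units of `2 ^ (-s)` -/
noncomputable def crtA (PP : Finset ℕ) (X : ℤ) (s j : ℕ) : ℕ :=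
  (∑ r ∈ PP, 2 ^ s * (crtT PP X j r).val / r) % 2 ^ s

/-- the product splits off one factor -/
theorem crt_prod_erase (PP : Finset ℕ) (r : ℕ) (hr : r ∈ PP) :
    (∏ t ∈ PP, t) = r * ∏ t ∈ PP.erase r, t :=
  (Finset.mul_prod_erase PP (fun t => t) hr).symm

/-- divisibility of the numerator by every prime -/
theorem crt_dvd_each (PP : Finset ℕ) (hP : ∀ r ∈ PP, r.Prime) (X : ℤ) (j r0 : ℕ) (hr0 : r0 ∈ PP) :
    (r0 : ℤ) ∣ (∑ r ∈ PP, ((crtT PP X j r).val : ℤ) * ((∏ t ∈ PP.erase r, t : ℕ) : ℤ))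
      - 2 ^ j * X := by
  have hp0 : r0.Prime := hP r0 hr0
  have : NeZero r0 := ⟨hp0.ne_zero⟩
  rw [← ZMod.intCast_zmod_eq_zero_iff_dvd]
  have hcop : Nat.Coprime (∏ t ∈ PP.erase r0, t) r0 := by
    apply Nat.Coprime.prod_left
    intro t ht
    have ht' := Finset.mem_erase.mp ht
    exact (Nat.coprime_primes (hP t ht'.2) hp0).mpr ht'.1
  have hinv := ZMod.coe_mul_inv_eq_one (∏ t ∈ PP.erase r0, t) hcop
  have hsum : ((∑ r ∈ PP, ((crtT PP X j r).val : ℤ) * ((∏ t ∈ PP.erase r, t : ℕ) : ℤ) : ℤ) : ZMod r0)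
      = (crtT PP X j r0) * ((∏ t ∈ PP.erase r0, t : ℕ) : ZMod r0) := by
    rw [Int.cast_sum, Finset.sum_eq_single_of_mem r0 hr0]
    · rw [Int.cast_mul, Int.cast_natCast, Int.cast_natCast, ZMod.natCast_zmod_val]
    · intro r hr hne
      rw [Int.cast_mul, Int.cast_natCast, Int.cast_natCast]
      have hd : r0 ∣ ∏ t ∈ PP.erase r, t :=
        Finset.dvd_prod_of_mem (fun t => t) (Finset.mem_erase.mpr ⟨hne.symm, hr0⟩)
      rw [(ZMod.natCast_eq_zero_iff _ _).mpr hd, mul_zero]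
  rw [Int.cast_sub, hsum, crtT]
  have hx : (X : ZMod r0) * ((∏ t ∈ PP.erase r0, t : ℕ) : ZMod r0)⁻¹ * 2 ^ j *
      ((∏ t ∈ PP.erase r0, t : ℕ) : ZMod r0)
      = (X : ZMod r0) * 2 ^ j * (((∏ t ∈ PP.erase r0, t : ℕ) : ZMod r0) *
        ((∏ t ∈ PP.erase r0, t : ℕ) : ZMod r0)⁻¹) := by ring
  rw [hx, hinv]
  push_cast
  ring

/-- the fractional part -/
theorem crt_frac (PP : Finset ℕ) (hP : ∀ r ∈ PP, r.Prime) (X : ℤ) (j : ℕ) :
    ∃ m : ℤ, ∑ r ∈ PP, ((crtT PP X j r).val : ℝ) / r =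
      2 ^ j * (X : ℝ) / (∏ r ∈ PP, r : ℕ) + m := by
  have hdvd : ((∏ r ∈ PP, r : ℕ) : ℤ) ∣
      (∑ r ∈ PP, ((crtT PP X j r).val : ℤ) * ((∏ t ∈ PP.erase r, t : ℕ) : ℤ)) - 2 ^ j * X := by
    rw [Int.natCast_dvd]
    apply Finset.prod_primes_dvd
    · intro a ha
      exact (hP a ha).prime
    · intro a ha
      rw [← Int.natCast_dvd]
      exact crt_dvd_each PP hP X j a ha
  obtain ⟨m, hm⟩ := hdvd
  refine ⟨m, ?_⟩
  have hMpos : (0 : ℝ) < ((∏ r ∈ PP, r : ℕ) : ℝ) := by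
    have : 0 < ∏ r ∈ PP, r := Finset.prod_pos fun r hr => (hP r hr).pos
    exact_mod_cast this
  have hterm : ∀ r ∈ PP, ((crtT PP X j r).val : ℝ) / r
      = ((crtT PP X j r).val : ℝ) * ((∏ t ∈ PP.erase r, t : ℕ) : ℝ) / ((∏ r ∈ PP, r : ℕ) : ℝ) := by
    intro r hr
    have hrpos : (0 : ℝ) < (r : ℝ) := by exact_mod_cast (hP r hr).pos
    have hQpos : (0 : ℝ) < ((∏ t ∈ PP.erase r, t : ℕ) : ℝ) := by
      have : 0 < ∏ t ∈ PP.erase r, t :=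
        Finset.prod_pos fun t ht => (hP t (Finset.mem_of_mem_erase ht)).pos
      exact_mod_cast this
    have hM : ((∏ r ∈ PP, r : ℕ) : ℝ) = (r : ℝ) * ((∏ t ∈ PP.erase r, t : ℕ) : ℝ) := by
      rw [crt_prod_erase PP r hr]
      push_cast
      rfl
    rw [hM, div_eq_div_iff hrpos.ne' (mul_pos hrpos hQpos).ne']
    ring
  rw [Finset.sum_congr rfl hterm, ← Finset.sum_div]
  have hm' : (∑ r ∈ PP, ((crtT PP X j r).val : ℝ) * ((∏ t ∈ PP.erase r, t : ℕ) : ℝ))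
      = 2 ^ j * (X : ℝ) + ((∏ r ∈ PP, r : ℕ) : ℝ) * m := by
    have h2 := congrArg (fun z : ℤ => (z : ℝ)) hm
    simp only [Int.cast_sub, Int.cast_sum, Int.cast_mul, Int.cast_natCast, Int.cast_pow,
      Int.cast_ofNat] at h2
    linarith
  rw [hm', add_div, mul_div_cancel_left₀ _ hMpos.ne']

theorem crtA_approx (PP : Finset ℕ) (hP : ∀ r ∈ PP, r.Prime) (X : ℤ) (s j : ℕ)
    (hs : 1024 * PP.card ≤ 2 ^ s) :
    ∃ m : ℤ, (crtA PP X s j : ℝ) / 2 ^ s ≤ 2 ^ j * (X : ℝ) / (∏ r ∈ PP, r : ℕ) + m ∧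
      2 ^ j * (X : ℝ) / (∏ r ∈ PP, r : ℕ) + m ≤ (crtA PP X s j : ℝ) / 2 ^ s + 1 / 1024 := by
  obtain ⟨m0, hm0⟩ := crt_frac PP hP X j
  set S : ℕ := ∑ r ∈ PP, 2 ^ s * (crtT PP X j r).val / r with hS
  have h2 : (0 : ℝ) < 2 ^ s := by positivity
  have hup : (S : ℝ) ≤ 2 ^ s * ∑ r ∈ PP, ((crtT PP X j r).val : ℝ) / r := by
    rw [hS, Nat.cast_sum, Finset.mul_sum]
    refine Finset.sum_le_sum fun r _ => ?_
    have := @Nat.cast_div_le ℝ _ _ _ (2 ^ s * (crtT PP X j r).val) r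
    push_cast at this
    rw [← mul_div_assoc]
    exact this
  have hlo : 2 ^ s * ∑ r ∈ PP, ((crtT PP X j r).val : ℝ) / r ≤ (S : ℝ) + PP.card := by
    have hcard : (PP.card : ℝ) = ∑ _r ∈ PP, (1 : ℝ) := by simp
    rw [hS, Nat.cast_sum, Finset.mul_sum, hcard, ← Finset.sum_add_distrib]
    refine Finset.sum_le_sum fun r hr => ?_
    have hrpos : (0 : ℝ) < (r : ℝ) := by exact_mod_cast (hP r hr).pos
    have hlt := Nat.lt_div_mul_add (hP r hr).pos (a := 2 ^ s * (crtT PP X j r).val)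
    have hlt' : (2 : ℝ) ^ s * ((crtT PP X j r).val : ℝ) <
        ((2 ^ s * (crtT PP X j r).val / r : ℕ) : ℝ) * r + r := by
      exact_mod_cast hlt
    rw [← mul_div_assoc, div_le_iff₀ hrpos]
    nlinarith
  have hmod : ((crtA PP X s j : ℕ) : ℝ) = (S : ℝ) - 2 ^ s * ((S / 2 ^ s : ℕ) : ℝ) := by
    have h := Nat.mod_add_div S (2 ^ s)
    have h' : ((S % 2 ^ s : ℕ) : ℝ) + (2 : ℝ) ^ s * ((S / 2 ^ s : ℕ) : ℝ) = (S : ℝ) := by
      exact_mod_cast h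
    rw [crtA, ← hS]
    linarith
  have hA : ((crtA PP X s j : ℕ) : ℝ) / 2 ^ s = (S : ℝ) / 2 ^ s - ((S / 2 ^ s : ℕ) : ℝ) := by
    rw [hmod, sub_div, mul_div_cancel_left₀ _ h2.ne']
  have hup' : (S : ℝ) / 2 ^ s ≤ ∑ r ∈ PP, ((crtT PP X j r).val : ℝ) / r := by
    rw [div_le_iff₀ h2]
    linarith
  have hcs : (1024 : ℝ) * PP.card ≤ 2 ^ s := by exact_mod_cast hs
  have hlo' : ∑ r ∈ PP, ((crtT PP X j r).val : ℝ) / r ≤ (S : ℝ) / 2 ^ s + 1 / 1024 := by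
    have : ∑ r ∈ PP, ((crtT PP X j r).val : ℝ) / r ≤ ((S : ℝ) + PP.card) / 2 ^ s := by
      rw [le_div_iff₀ h2]
      linarith
    have h3 : (PP.card : ℝ) / 2 ^ s ≤ 1 / 1024 := by
      rw [div_le_div_iff₀ h2 (by norm_num)]
      linarith
    rw [add_div] at this
    linarith
  refine ⟨m0 - ((S / 2 ^ s : ℕ) : ℤ), ?_, ?_⟩
  · rw [hA, Int.cast_sub, Int.cast_natCast]
    linarith
  · rw [hA, Int.cast_sub, Int.cast_natCast]
    linarith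

end Vale.Agent.P337
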