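import Mathlib
import Vale.Agent.Lib.P337.NT.Crt

/-!
P337, number theory: the sign of an integer from its residues modulo primes.
-/

namespace Vale.Agent.P337

private theorem cs_key {a T : ℕ} (haT : a < T) {y : ℝ} {m : ℤ} (h1 : (a : ℝ) / T ≤ y + m)
    (h2 : y + m ≤ (a : ℝ) / T + 1 / 1024) (hy : |y| < 3 / 8) :
    ((8 * a < T ∨ 7 * T ≤ 8 * a) → |y| ≤ 1 / 8 + 1 / 1024) ∧
      (¬ (8 * a < T ∨ 7 * T ≤ 8 * a) → (y < 0 ↔ T ≤ 2 * a)) := by
  have hT : (0 : ℝ) < T := by
    have : 0 < T := by omega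
    exact_mod_cast this
  set r : ℝ := (a : ℝ) / T with hr
  have har : (a : ℝ) = r * T := by rw [hr, div_mul_cancel₀ _ hT.ne']
  have hr0 : 0 ≤ r := by positivity
  have hr1 : r < 1 := by
    rw [hr, div_lt_one hT]
    exact_mod_cast haT
  obtain ⟨hy1, hy2⟩ := abs_lt.1 hy
  have e1 : 8 * a < T ↔ r < 1 / 8 := by
    have : 8 * a < T ↔ 8 * (a : ℝ) < T := by exact_mod_cast Iff.rfl
    rw [this, har]
    constructor
    · intro h
      by_contra hcon
      push Not at hcon
      have := mul_le_mul_of_nonneg_right hcon hT.le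
      linarith
    · intro h
      have := mul_lt_mul_of_pos_right h hT
      linarith
  have e2 : 7 * T ≤ 8 * a ↔ 7 / 8 ≤ r := by
    have : 7 * T ≤ 8 * a ↔ 7 * (T : ℝ) ≤ 8 * (a : ℝ) := by exact_mod_cast Iff.rfl
    rw [this, har]
    constructor
    · intro h
      by_contra hcon
      push Not at hcon
      have := mul_lt_mul_of_pos_right hcon hT
      linarith
    · intro h
      have := mul_le_mul_of_nonneg_right h hT.le
      linarith
  have e3 : T ≤ 2 * a ↔ 1 / 2 ≤ r := by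
    have : T ≤ 2 * a ↔ (T : ℝ) ≤ 2 * (a : ℝ) := by exact_mod_cast Iff.rfl
    rw [this, har]
    constructor
    · intro h
      by_contra hcon
      push Not at hcon
      have := mul_lt_mul_of_pos_right hcon hT
      linarith
    · intro h
      have := mul_le_mul_of_nonneg_right h hT.le
      linarith
  rw [e1, e2, e3]
  have hm1 : -1 < m := by
    have : (-1 : ℝ) < m := by linarith
    exact_mod_cast this
  have hm2 : m < 2 := by
    have : (m : ℝ) < 2 := by linarith
    exact_mod_cast this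
  have hm : m = 0 ∨ m = 1 := by omega
  rcases hm with rfl | rfl
  · push_cast at h1 h2
    refine ⟨fun h => ?_, fun h => ?_⟩
    · rw [abs_le]
      rcases h with h | h <;> constructor <;> linarith
    · push Not at h
      constructor
      · intro h3
        linarith [h.1]
      · intro h3
        linarith [h.1]
  · push_cast at h1 h2
    refine ⟨fun h => ?_, fun h => ?_⟩
    · rw [abs_le]
      rcases h with h | h <;> constructor <;> linarith
    · push Not at h
      constructor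
      · intro h3
        linarith [h.1]
      · intro h3
        linarith [h.2]

theorem crt_sign (PP : Finset ℕ) (hP : ∀ r ∈ PP, r.Prime) (X : ℤ) (s J : ℕ)
    (hs : 1024 * PP.card ≤ 2 ^ s) (hX : 16 * |X| < (∏ r ∈ PP, r : ℕ))
    (hJ : ∏ r ∈ PP, r ≤ 2 ^ J) :
    X < 0 ↔ ∃ j < J + 1, (∀ i < j, 8 * crtA PP X s i < 2 ^ s ∨ 7 * 2 ^ s ≤ 8 * crtA PP X s i) ∧
      2 ^ s ≤ 2 * crtA PP X s j ∧ 8 * crtA PP X s j < 7 * 2 ^ s := by
  set W : ℕ := ∏ r ∈ PP, r with hW
  have hW0 : 0 < W := Finset.prod_pos fun r hr => (hP r hr).pos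
  have hWR : (0 : ℝ) < W := by exact_mod_cast hW0
  set y : ℕ → ℝ := fun j => 2 ^ j * (X : ℝ) / W with hy
  have hlt : ∀ j, crtA PP X s j < 2 ^ s := fun j => Nat.mod_lt _ (by positivity)
  have key : ∀ j, |y j| < 3 / 8 →
      ((8 * crtA PP X s j < 2 ^ s ∨ 7 * 2 ^ s ≤ 8 * crtA PP X s j) → |y j| ≤ 1 / 8 + 1 / 1024) ∧
      (¬ (8 * crtA PP X s j < 2 ^ s ∨ 7 * 2 ^ s ≤ 8 * crtA PP X s j) →
        (y j < 0 ↔ 2 ^ s ≤ 2 * crtA PP X s j)) := by
    intro j hj
    obtain ⟨m, h1, h2⟩ := crtA_approx PP hP X s j hs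
    refine cs_key (m := m) (hlt j) ?_ ?_ hj
    · push_cast
      exact h1
    · push_cast
      exact h2
  have hy0 : |y 0| < 3 / 8 := by
    have h1 : 16 * |(X : ℝ)| < W := by exact_mod_cast hX
    show |2 ^ 0 * (X : ℝ) / W| < 3 / 8
    rw [pow_zero, one_mul, abs_div, abs_of_pos hWR, div_lt_iff₀ hWR]
    linarith
  have hsucc : ∀ j, y (j + 1) = 2 * y j := by
    intro j
    show 2 ^ (j + 1) * (X : ℝ) / W = 2 * (2 ^ j * (X : ℝ) / W)
    rw [pow_succ]
    ring
  have hind : ∀ j, (∀ i < j, 8 * crtA PP X s i < 2 ^ s ∨ 7 * 2 ^ s ≤ 8 * crtA PP X s i) →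
      |y j| < 3 / 8 := by
    intro j
    induction j with
    | zero => exact fun _ => hy0
    | succ j ih =>
      intro h
      have h1 := ih fun i hi => h i (by omega)
      have h2 := (key j h1).1 (h j (by omega))
      rw [hsucc, abs_mul, abs_two]
      linarith
  constructor
  · intro hneg
    have hex : ∃ j, j < J + 1 ∧
        ¬ (8 * crtA PP X s j < 2 ^ s ∨ 7 * 2 ^ s ≤ 8 * crtA PP X s j) := by
      by_contra hcon
      push Not at hcon
      have h1 : |y J| < 3 / 8 := hind J fun i hi => hcon i (by omega)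
      have h2 : (1 : ℝ) ≤ |y J| := by
        show (1 : ℝ) ≤ |2 ^ J * (X : ℝ) / W|
        rw [abs_div, abs_mul, abs_of_pos hWR, le_div_iff₀ hWR, one_mul,
          abs_of_pos (pow_pos two_pos J)]
        have h3 : (W : ℝ) ≤ 2 ^ J := by exact_mod_cast hJ
        have h4 : (1 : ℝ) ≤ |(X : ℝ)| := by exact_mod_cast Int.one_le_abs hneg.ne
        have h5 : (2 : ℝ) ^ J * 1 ≤ 2 ^ J * |(X : ℝ)| :=
          mul_le_mul_of_nonneg_left h4 (by positivity)
        linarith
      linarith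
    obtain ⟨j, hj, hjmin⟩ : ∃ j, (j < J + 1 ∧
        ¬ (8 * crtA PP X s j < 2 ^ s ∨ 7 * 2 ^ s ≤ 8 * crtA PP X s j)) ∧
        ∀ i < j, ¬ (i < J + 1 ∧
          ¬ (8 * crtA PP X s i < 2 ^ s ∨ 7 * 2 ^ s ≤ 8 * crtA PP X s i)) := by
      classical
      exact ⟨Nat.find hex, Nat.find_spec hex, fun i hi => Nat.find_min hex hi⟩
    have hnear : ∀ i < j, 8 * crtA PP X s i < 2 ^ s ∨ 7 * 2 ^ s ≤ 8 * crtA PP X s i := by
      intro i hi
      by_contra hcon
      exact hjmin i hi ⟨by omega, hcon⟩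
    refine ⟨j, hj.1, hnear, ?_⟩
    have h2 := ((key j (hind j hnear)).2 hj.2).1 (by
      show 2 ^ j * (X : ℝ) / W < 0
      have h3 : (X : ℝ) < 0 := by exact_mod_cast hneg
      exact div_neg_of_neg_of_pos (mul_neg_of_pos_of_neg (by positivity) h3) hWR)
    have h3 := hj.2
    rw [not_or] at h3
    push Not at h3
    exact ⟨h2, h3.2⟩
  · rintro ⟨j, _, hnear, h1, h2⟩
    have h3 := hind j hnear
    have h4 : ¬ (8 * crtA PP X s j < 2 ^ s ∨ 7 * 2 ^ s ≤ 8 * crtA PP X s j) := by omega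
    have h5 := ((key j h3).2 h4).2 h1
    by_contra hcon
    push Not at hcon
    have h6 : (0 : ℝ) ≤ X := by exact_mod_cast hcon
    have h7 : 0 ≤ y j := by
      show 0 ≤ 2 ^ j * (X : ℝ) / W
      positivity
    linarith

end Vale.Agent.P337
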