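import Mathlib

/-!
P337, number theory: many primes, and the sign of an integer from its residues.
-/

namespace Vale.Agent.P337

/-- the primes between `2 ^ E1` and `2 ^ E2` -/
def prs (E1 E2 : ℕ) : Finset ℕ := (Finset.range (2 ^ E2)).filter fun r => 2 ^ E1 < r ∧ r.Prime

theorem primorial_eq_mul_prs {E1 E2 : ℕ} (h : 2 ≤ E2) (hle : E1 ≤ E2) :
    primorial (2 ^ E2) = primorial (2 ^ E1) * ∏ r ∈ prs E1 E2, r := by
  have hpow : 2 ^ E1 ≤ 2 ^ E2 := Nat.pow_le_pow_right (by norm_num) hle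
  rw [primorial, ← Finset.prod_filter_mul_prod_filter_not _ (fun p => p ≤ 2 ^ E1), primorial]
  congr 1
  · refine Finset.prod_congr ?_ fun _ _ => rfl
    ext p
    simp only [Finset.mem_filter, Finset.mem_range]
    constructor
    · rintro ⟨⟨_, h2⟩, h3⟩
      exact ⟨by omega, h2⟩
    · rintro ⟨h1, h2⟩
      exact ⟨⟨by omega, h2⟩, by omega⟩
  · refine Finset.prod_congr ?_ fun _ _ => rfl
    ext p
    simp only [prs, Finset.mem_filter, Finset.mem_range]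
    constructor
    · rintro ⟨⟨h1, h2⟩, h3⟩
      refine ⟨?_, by omega, h2⟩
      rcases Nat.lt_or_ge p (2 ^ E2) with h4 | h4
      · exact h4
      · have h5 : p = 2 ^ E2 := by omega
        exact absurd (h5 ▸ h2) (Nat.Prime.not_prime_pow h)
    · rintro ⟨h1, h2, h3⟩
      exact ⟨⟨by omega, h3⟩, by omega⟩

theorem prs_sq_le_two_pow (k : ℕ) (hk : 20 ≤ k) : (32 * k) ^ 2 ≤ 2 ^ k := by
  induction k, hk using Nat.le_induction with
  | base => norm_num
  | succ k hk ih =>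
    calc (32 * (k + 1)) ^ 2 ≤ 2 * (32 * k) ^ 2 := by nlinarith
      _ ≤ 2 * 2 ^ k := by omega
      _ = 2 ^ (k + 1) := by ring

theorem prs_real1 {N s e : ℝ} (hs : 0 ≤ s) (hss : s * s = N) (h : 32 * e ≤ s) :
    2 * s * e ≤ N / 16 := by
  have h1 : s * (32 * e) ≤ s * s := mul_le_mul_of_nonneg_left h hs
  linarith

theorem prs_real2 {N e : ℝ} (he : 20 ≤ e) (h : (32 * e) ^ 2 ≤ N) : e + 1 ≤ N / 16 := by
  have h1 : e * 20 ≤ e * e := mul_le_mul_of_nonneg_left he (by linarith)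
  have h2 : (32 * e) ^ 2 = 1024 * (e * e) := by ring
  rw [h2] at h
  linarith

theorem prs_real3 (a b : ℕ) : (2 : ℝ) ^ a * 2 ^ 20 ≤ 2 ^ (b + a + 20) := by
  rw [pow_add, pow_add]
  have h1 : (1 : ℝ) ≤ 2 ^ b := one_le_pow₀ (by norm_num)
  have h2 : (2 : ℝ) ^ a ≤ 2 ^ b * 2 ^ a := le_mul_of_one_le_left (by positivity) h1
  exact mul_le_mul_of_nonneg_right h2 (by positivity)

theorem prs_real4 {N e : ℝ} (he : 0 ≤ e) (h : e * 2 ^ 20 ≤ N) : e * 2 ≤ N / 16 := by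
  have h2 : e * 2 ^ 20 = e * 1048576 := by norm_num
  rw [h2] at h
  linarith

theorem prs_real5 {N e : ℝ} (he : 1 ≤ e) (h : e * 2 ^ 20 ≤ N) : e + 5 ≤ N / 4 := by
  have h2 : e * 2 ^ 20 = e * 1048576 := by norm_num
  rw [h2] at h
  linarith

theorem prs_logpow (k : ℕ) (a : ℝ) (h : a = 2 ^ k) : Real.log a = k * Real.log 2 := by
  rw [h, Real.log_pow]

theorem prs_log_ge (E E1 : ℕ) : ((2 : ℝ) ^ E + 5) * Real.log 2 ≤
    Real.log ((∏ r ∈ prs E1 (E + E1 + 20), r : ℕ) : ℝ) := by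
  obtain ⟨E2, hE2⟩ : ∃ E2, E2 = E + E1 + 20 := ⟨_, rfl⟩
  rw [← hE2]
  have hPpos : 0 < ∏ r ∈ prs E1 E2, r :=
    Finset.prod_pos fun r hr => (Finset.mem_filter.1 hr).2.2.pos
  have hL : 0 < Real.log 2 := Real.log_pos (by norm_num)
  obtain ⟨L, hLdef⟩ : ∃ L, L = Real.log 2 := ⟨_, rfl⟩
  obtain ⟨N, hN⟩ : ∃ N, N = (2 : ℝ) ^ E2 := ⟨_, rfl⟩
  rw [← hLdef] at hL ⊢
  have hNpos : 0 < N := by rw [hN]; positivity
  have hN1' : 1 ≤ N := by rw [hN]; exact one_le_pow₀ (by norm_num)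
  have hsq : ((32 : ℝ) * E2) ^ 2 ≤ N := by
    have := prs_sq_le_two_pow E2 (by omega)
    rw [hN]
    exact_mod_cast this
  have hsqrt : 32 * (E2 : ℝ) ≤ √N := Real.le_sqrt_of_sq_le hsq
  have hss : √N * √N = N := Real.mul_self_sqrt hNpos.le
  have h20 : (20 : ℝ) ≤ E2 := by
    have : 20 ≤ E2 := by omega
    exact_mod_cast this
  have hlogN : Real.log N = E2 * L := by rw [hLdef]; exact prs_logpow _ _ hN
  have e1 : 2 * √N * Real.log N ≤ N / 16 * L := by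
    rw [hlogN]
    have := prs_real1 (Real.sqrt_nonneg N) hss hsqrt
    calc 2 * √N * (E2 * L) = (2 * √N * E2) * L := by ring
      _ ≤ N / 16 * L := mul_le_mul_of_nonneg_right this hL.le
  have e2 : Real.log (N + 1) ≤ N / 16 * L := by
    have h1 : N + 1 ≤ N * 2 := by linarith
    have h2 : Real.log (N + 1) ≤ Real.log (N * 2) := Real.log_le_log (by positivity) h1
    rw [Real.log_mul hNpos.ne' (by norm_num), hlogN, ← hLdef] at h2
    calc Real.log (N + 1) ≤ (E2 + 1) * L := by linarith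
      _ ≤ N / 16 * L := mul_le_mul_of_nonneg_right (prs_real2 h20 hsq) hL.le
  have hN1 : (2 : ℝ) ^ E1 * 2 ^ 20 ≤ N := by
    rw [hN, hE2]
    exact prs_real3 _ _
  have hN2 : (2 : ℝ) ^ E * 2 ^ 20 ≤ N := by
    rw [hN, hE2, Nat.add_comm E E1]
    exact prs_real3 _ _
  have e3 : Real.log (primorial (2 ^ E1)) ≤ N / 16 * L := by
    have h1 : (primorial (2 ^ E1) : ℝ) ≤ 4 ^ (2 ^ E1) := by
      exact_mod_cast primorial_le_four_pow (2 ^ E1)
    have h2 : Real.log (primorial (2 ^ E1)) ≤ Real.log (4 ^ (2 ^ E1)) :=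
      Real.log_le_log (by exact_mod_cast primorial_pos _) h1
    have h3 : Real.log (4 : ℝ) = (2 : ℕ) * L := by
      rw [hLdef]
      exact prs_logpow 2 4 (by norm_num)
    rw [Real.log_pow, h3] at h2
    calc Real.log (primorial (2 ^ E1)) ≤ (2 ^ E1 * 2) * L := by
          refine h2.trans (le_of_eq ?_)
          push_cast
          ring
      _ ≤ N / 16 * L := mul_le_mul_of_nonneg_right (prs_real4 (by positivity) hN1) hL.le
  have hmain : Real.log (primorial (2 ^ E2)) = Real.log (primorial (2 ^ E1)) +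
      Real.log ((∏ r ∈ prs E1 E2, r : ℕ) : ℝ) := by
    rw [primorial_eq_mul_prs (E1 := E1) (E2 := E2) (by omega) (by omega), Nat.cast_mul,
      Real.log_mul]
    · exact_mod_cast (primorial_pos _).ne'
    · exact_mod_cast hPpos.ne'
  have htheta := Chebyshev.theta_ge (2 ^ E2)
  rw [Chebyshev.theta_eq_log_primorial, Nat.floor_natCast, hmain, Nat.cast_pow, Nat.cast_ofNat,
    ← hN, ← hLdef] at htheta
  have h2 : ((2 : ℝ) ^ E + 5) * L ≤ N / 4 * L :=
    mul_le_mul_of_nonneg_right (prs_real5 (one_le_pow₀ (by norm_num)) hN2) hL.le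
  have h3 : (0 : ℝ) < N * L := by positivity
  linarith

theorem prod_prs_ge (E E1 : ℕ) : 2 ^ 2 ^ E * 32 ≤ ∏ r ∈ prs E1 (E + E1 + 20), r := by
  have hPpos : 0 < ∏ r ∈ prs E1 (E + E1 + 20), r :=
    Finset.prod_pos fun r hr => (Finset.mem_filter.1 hr).2.2.pos
  have h := prs_log_ge E E1
  have hgoal : Real.log ((2 : ℝ) ^ (2 ^ E + 5)) ≤
      Real.log ((∏ r ∈ prs E1 (E + E1 + 20), r : ℕ) : ℝ) := by
    rw [Real.log_pow]
    push_cast at h ⊢
    exact h
  have hfin : (2 : ℝ) ^ (2 ^ E + 5) ≤ ((∏ r ∈ prs E1 (E + E1 + 20), r : ℕ) : ℝ) := by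
    rwa [Real.log_le_log_iff (by positivity) (by exact_mod_cast hPpos)] at hgoal
  have hnat : 2 ^ (2 ^ E + 5) ≤ ∏ r ∈ prs E1 (E + E1 + 20), r := by exact_mod_cast hfin
  rw [pow_add] at hnat
  exact hnat

theorem prod_prs_le (E1 E2 : ℕ) : ∏ r ∈ prs E1 E2, r ≤ 2 ^ (E2 * 2 ^ E2) := by
  calc ∏ r ∈ prs E1 E2, r ≤ ∏ _r ∈ prs E1 E2, 2 ^ E2 :=
        Finset.prod_le_prod' fun r hr => (Finset.mem_range.1 (Finset.mem_filter.1 hr).1).le
    _ = (2 ^ E2) ^ (prs E1 E2).card := by rw [Finset.prod_const]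
    _ ≤ (2 ^ E2) ^ (2 ^ E2) := by
        refine Nat.pow_le_pow_right (by positivity) ?_
        exact (Finset.card_filter_le _ _).trans (by simp)
    _ = 2 ^ (E2 * 2 ^ E2) := by rw [pow_mul]

end Vale.Agent.P337
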